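import Vale.Agent.Lib.P054.Dense

namespace Vale.Agent.Results.P054.DenseGrid

/-- Distinct distances for dense subsets of an integer grid cube in dimension `d ≥ 3`:
if `P` consists of `n ≥ 2` integer points in a cube with `t` lattice points per side and
`n ≥ δ t^d`, then `P` determines at least `δ^2 / (48384 * 25^(d-3)) * n^(2/d)` distinct
distances. -/
theorem result (d : ℕ) (hd : 3 ≤ d) (δ : ℝ) (hδ : 0 < δ) (t : ℕ) (a : Fin d → ℤ)
    (P : Finset (EuclideanSpace ℝ (Fin d)))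
    (hP : ∀ p ∈ P, ∀ i, ∃ k : ℤ, a i ≤ k ∧ k < a i + t ∧ p i = (k : ℝ))
    (hn : 2 ≤ P.card) (hdense : δ * (t : ℝ) ^ d ≤ P.card) :
    δ ^ 2 / (48384 * 25 ^ (d - 3)) * (P.card : ℝ) ^ ((2 : ℝ) / d)
      ≤ ((P.offDiag.image (fun pq => dist pq.1 pq.2)).card : ℝ) :=
  Vale.Agent.Lib.P054.dense_grid_bound d hd δ hδ t a P hP hn hdense

end Vale.Agent.Results.P054.DenseGrid
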