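import Vale.Agent.Lib.P054.Dense

namespace Vale.Agent.Results.P054.GridEnergyBound

/-- For `n ≥ 1` integer points in a cube of `ℝ^d` (`d ≥ 3`) with `t` lattice points per side,
`(n - 1)^2 ≤ 12096 * 25^(d-3) * t^(2d-2) * (number of distinct distances)`. -/
theorem result (d : ℕ) (hd : 3 ≤ d) (t : ℕ) (a : Fin d → ℤ)
    (P : Finset (EuclideanSpace ℝ (Fin d)))
    (hP : ∀ p ∈ P, ∀ i, ∃ k : ℤ, a i ≤ k ∧ k < a i + t ∧ p i = (k : ℝ))
    (hn : 1 ≤ P.card) :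
    ((P.card : ℝ) - 1) ^ 2
      ≤ 12096 * 25 ^ (d - 3) * (t : ℝ) ^ (2 * d - 2)
        * ((P.offDiag.image (fun pq => dist pq.1 pq.2)).card : ℝ) :=
  Vale.Agent.Lib.P054.grid_energy_bound d hd t a P hP hn

end Vale.Agent.Results.P054.GridEnergyBound
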