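import Vale.Agent.Lib.P054.Lattice

namespace Vale.Agent.Results.P054.LatticeDense

/-- Distinct distances for dense subsets of a box of an arbitrary lattice in dimension `d ≥ 3`:
if `v 1, ..., v d` are linearly independent vectors of `ℝ^d`, and `P` consists of `n ≥ 2` points
of the form `x₀ + k 1 • v 1 + ... + k d • v d` with integers `0 ≤ k i < t`, and `n ≥ δ t^d`,
then every point of `P` has at least `δ^2 / ((16 d + 8) * 36^(d-1)) * n^(2/d)` distinct
distances to the other points of `P`, and so `P` determines at least that many distinct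
distances. The constant does not depend on the lattice. -/
theorem result (d : ℕ) (hd : 3 ≤ d) (δ : ℝ) (hδ : 0 < δ) (t : ℕ)
    (v : Fin d → EuclideanSpace ℝ (Fin d)) (hv : LinearIndependent ℝ v)
    (x₀ : EuclideanSpace ℝ (Fin d)) (P : Finset (EuclideanSpace ℝ (Fin d)))
    (hP : ∀ p ∈ P, ∃ k : Fin d → ℤ, (∀ i, 0 ≤ k i ∧ k i < t) ∧ p = x₀ + ∑ i, (k i : ℝ) • v i)
    (hn : 2 ≤ P.card) (hdense : δ * (t : ℝ) ^ d ≤ P.card) :
    (∀ p ∈ P, δ ^ 2 / ((16 * (d : ℝ) + 8) * 36 ^ (d - 1)) * (P.card : ℝ) ^ ((2 : ℝ) / d)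
      ≤ (((P.erase p).image (fun q => dist p q)).card : ℝ)) ∧
    δ ^ 2 / ((16 * (d : ℝ) + 8) * 36 ^ (d - 1)) * (P.card : ℝ) ^ ((2 : ℝ) / d)
      ≤ ((P.offDiag.image (fun pq => dist pq.1 pq.2)).card : ℝ) := by
  have e : (16 * (d : ℝ) + 8) * 36 ^ (d - 1) = 4 * ((4 * (d : ℝ) + 2) * (36 : ℝ) ^ (d - 1)) := by
    ring
  rw [e]
  exact ⟨fun p hp => Vale.Agent.Lib.P054.lattice_dense_pinned d t hd δ hδ v hv x₀ P hP hn hdense p hp,
    Vale.Agent.Lib.P054.lattice_dense d t hd δ hδ v hv x₀ P hP hn hdense⟩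

end Vale.Agent.Results.P054.LatticeDense
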