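import Vale.Agent.Lib.P054.Lattice

namespace Vale.Agent.Results.P054.LatticeEnergy

/-- Pinned distinct distances in a box of an arbitrary lattice in dimension `d ≥ 3`:
if `v 1, ..., v d` are linearly independent vectors of `ℝ^d` and `P` is a set of `n` points
of the form `x₀ + k 1 • v 1 + ... + k d • v d` with integers `0 ≤ k i < t`, then for every point
`p` of `P`, `(n - 1)^2 ≤ (4 d + 2) * 36^(d-1) * t^(2d-2) * D`, where `D` is the number of distinct
distances from `p` to the other points of `P`. The constant does not depend on the lattice. -/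
theorem result (d : ℕ) (hd : 3 ≤ d) (t : ℕ)
    (v : Fin d → EuclideanSpace ℝ (Fin d)) (hv : LinearIndependent ℝ v)
    (x₀ : EuclideanSpace ℝ (Fin d)) (P : Finset (EuclideanSpace ℝ (Fin d)))
    (hP : ∀ p ∈ P, ∃ k : Fin d → ℤ, (∀ i, 0 ≤ k i ∧ k i < t) ∧ p = x₀ + ∑ i, (k i : ℝ) • v i) :
    ∀ p ∈ P, ((P.card : ℝ) - 1) ^ 2
      ≤ (4 * (d : ℝ) + 2) * 36 ^ (d - 1) * (t : ℝ) ^ (2 * d - 2)
        * (((P.erase p).image (fun q => dist p q)).card : ℝ) :=
  fun p hp => Vale.Agent.Lib.P054.lattice_pinned d t hd v hv x₀ P hP p hp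

end Vale.Agent.Results.P054.LatticeEnergy
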